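import Vale.Agent.P157.Parisi.Sphere.System
import Vale.Agent.P157.Parisi.Statements

/-!
Interfaces between the parts of the proof on the sphere, as propositions.
-/

noncomputable section

open MeasureTheory ProbabilityTheory Filter
open scoped BigOperators NNReal ENNReal Topology

namespace Vale.Agent.P157.Parisi.Sphere

/-- Module D: the perturbation forces the Ghirlanda–Guerra identities. -/
def PerturbS : Prop :=
  ∀ (α A C : ℝ) (f : ℝ → ℝ), 0 < α → Smooth f A → ∀ P : ∀ N, Pts N, ∀ μ : ℕ → ℝ,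
    (∀ N, 0 ≤ μ N) → (∀ N, |μ N - α * N| ≤ C) →
    ∃ δ : (N : ℕ) → ℕ → (Fin N → ℝ) → ℝ,
      (∀ N p, Measurable (δ N p)) ∧ (∀ N p x, 0 ≤ δ N p x ∧ δ N p x ≤ 2) ∧
      (∀ N p x, (∀ i, x i ∈ Set.Icc (1 : ℝ) 2) →
        GGWithin (sysState (P N) f (scale N) x (μ N)) p (δ N p x)) ∧
      ∀ p, Tendsto (fun N => ∫ x, δ N p x ∂xLaw N) atTop (𝓝 0)

/-- Module E: the identities force asymptotically a cascade. -/
def TreeApproxS : Prop :=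
  ∀ (N : ℕ → ℕ) (P : ∀ j, Pts (N j)) (S : ∀ j, State (P j)), Tendsto N atTop atTop →
    (∀ j, (S j).IsGood) → ∀ δ : ℕ → ℕ → ℝ, (∀ p, Tendsto (fun j => δ j p) atTop (𝓝 0)) →
      (∀ j p, GGWithin (S j) p (δ j p)) →
      ∃ (φ : ℕ → ℕ) (ξ : ℕ → Path), StrictMono φ ∧
        Approx (fun j => N (φ j)) (fun j => P (φ j)) (fun j => S (φ j)) ξ

/-- Module F1: fresh patterns in asymptotic cascades. -/
def ContS : Prop :=
  ∀ (A : ℝ) (f : ℝ → ℝ), Smooth f A → ∀ (N : ℕ → ℕ) (P : ∀ j, Pts (N j)) (S : ∀ j, State (P j))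
    (ξ : ℕ → Path), (∀ j, 0 < N j) → (∀ j, (S j).IsGood) → Approx N P S ξ →
    ∀ (k n : ℕ) (F : (Fin n → Fin n → ℝ) → ℝ) (o : Fin k → Obs n), Continuous F →
      (∀ i, (o i).Good) →
      Tendsto (fun j => (S j).patMean f F o - (ξ j).treePat f F o) atTop (𝓝 0)

/-- Module F2: the logarithm of the weight of fresh patterns. -/
def LogS : Prop :=
  ∀ (A : ℝ) (f : ℝ → ℝ), Smooth f A → ∀ (N : ℕ → ℕ) (P : ∀ j, Pts (N j)) (S : ∀ j, State (P j))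
    (ξ : ℕ → Path), (∀ j, 0 < N j) → (∀ j, (S j).IsGood) → Approx N P S ξ → ∀ k : ℕ,
      Tendsto (fun j => (S j).logMean f k - k * patValue f (ξ j).m (ξ j).q) atTop (𝓝 0)

/-- Module G1: adding one coordinate. -/
def CavityS : Prop :=
  ∀ (α A C : ℝ) (f : ℝ → ℝ), 0 < α → Smooth f A → ∀ P : ∀ N, Pts N, IsNets P →
    ∀ ε > 0, ∀ R : ℕ, 0 < R → ∃ m₀ : ℕ, ∀ m ≥ m₀, ∃ T₀ : ℝ, ∀ T ≥ T₀, ∀ᶠ N : ℕ in atTop,
      ∀ μ : ℝ, 0 ≤ μ → |μ - α * N| ≤ C → ∀ x : Fin N → ℝ, (∀ i, x i ∈ Set.Icc (1 : ℝ) 2) →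
        cavVal (P N) f R m T (scale N) x μ - ε ≤
          logPartS (P (N + 1)) f (scale N) x μ - logPartS (P N) f (scale N) x μ

/-- Module G2: the change of the perturbation. -/
def PertChangeS : Prop :=
  ∀ (α A C : ℝ) (f : ℝ → ℝ), 0 < α → Smooth f A → ∀ P : ∀ N, Pts N, ∀ μ : ℕ → ℝ,
    (∀ N, 0 ≤ μ N) → (∀ N, |μ N - α * N| ≤ C) →
    Tendsto (fun N =>
      (∫ x, logPartS (P (N + 1)) f (scale (N + 1)) x (μ N) ∂xLaw (N + 1)) -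
        ∫ x, logPartS (P (N + 1)) f (scale N) x (μ N) ∂xLaw N) atTop (𝓝 0)

/-- Module H: the cavity value in asymptotic cascades. -/
def SiteS : Prop :=
  ∀ (α A C : ℝ) (f : ℝ → ℝ), 0 < α → Smooth f A → ∀ (N : ℕ → ℕ) (P : ∀ j, Pts (N j))
    (x : ∀ j, Fin (N j) → ℝ) (μ : ℕ → ℝ) (ξ : ℕ → Path), Tendsto N atTop atTop →
    (∀ j, 0 < N j) → (∀ j, 0 ≤ μ j) → (∀ j, |μ j - α * N j| ≤ C) →
    Approx N P (fun j => sysState (P j) f (scale (N j)) (x j) (μ j)) ξ →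
    ∀ ε > 0, ∃ R₀ : ℕ, ∀ R ≥ R₀, ∃ m₀ : ℕ, ∀ m ≥ m₀, ∃ T₀ : ℝ, ∀ T ≥ T₀, ∀ᶠ j in atTop,
      siteSphere α f (ξ j).m (ξ j).q - ε ≤
        cavVal (P j) f R m T (scale (N j)) (x j) (μ j)

/-- The existence of discretisations. -/
def NetsS : Prop := ∃ P : ∀ N, Pts N, IsNets P

/-- The lower bound. -/
def LowerS : Prop :=
  ∀ (α A : ℝ) (f : ℝ → ℝ), 0 < α → Smooth f A → ∀ ε > 0,
    ∀ᶠ N : ℕ in atTop, ∃ v ∈ parisiSphereValues α f, v ≤ meanPressure sphereLaw α f N + ε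

/-- Module C: the upper bound. -/
def UpperS : Prop :=
  ∀ (α A : ℝ) (f : ℝ → ℝ), 0 < α → Smooth f A → BlockConcave f → ∀ ξ : Path, ∀ ε > 0,
    ∀ᶠ N : ℕ in atTop, meanPressure sphereLaw α f N ≤ parisiSphere α f ξ.m ξ.q + ε

end Vale.Agent.P157.Parisi.Sphere
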