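import Vale.Agent.P157.Parisi.Defs

/-!
The Parisi functional of the Gaussian perceptron on the sphere.
-/

noncomputable section

open MeasureTheory ProbabilityTheory

namespace Vale.Agent.P157.Parisi.Sphere

/-- The inverse variance of a spherical spin at depth `p`:
`D_p = 1 + α (c_r - ∑ w q c) - α ∑_{i ≥ p} m_i (c_{i+1} - c_i)` for the conjugate path `c`. -/
def precision {r : ℕ} (α : ℝ) (f : ℝ → ℝ) (m : Fin r → ℝ) (q : Fin (r + 1) → ℝ)
    (p : Fin (r + 1)) : ℝ :=
  1 + α * (slope f m q (Fin.last r) - ∑ k, weight m k * q k * slope f m q k) -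
    α * ∑ i : Fin r, if p.val ≤ i.val then m i * (slope f m q i.succ - slope f m q i.castSucc) else 0

/-- The site part: the closed form of the recursion for a Gaussian spin of precision `D`. -/
def siteSphere {r : ℕ} (α : ℝ) (f : ℝ → ℝ) (m : Fin r → ℝ) (q : Fin (r + 1) → ℝ) : ℝ :=
  α * slope f m q 0 / (2 * precision α f m q 0) - Real.log (precision α f m q (Fin.last r)) / 2 +
    ∑ i : Fin r, Real.log (precision α f m q i.succ / precision α f m q i.castSucc) / (2 * m i)

/-- The Parisi functional on the sphere at the path `(m, q)`. -/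
def parisiSphere {r : ℕ} (α : ℝ) (f : ℝ → ℝ) (m : Fin r → ℝ) (q : Fin (r + 1) → ℝ) : ℝ :=
  α * patValue f m q + siteSphere α f m q

/-- The values of the functional over all discrete paths. -/
def parisiSphereValues (α : ℝ) (f : ℝ → ℝ) : Set ℝ :=
  {v | ∃ (r : ℕ) (m : Fin r → ℝ) (q : Fin (r + 1) → ℝ), IsPath m q ∧ v = parisiSphere α f m q}

end Vale.Agent.P157.Parisi.Sphere
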