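import Vale.Agent.P157.Parisi.Sphere.Defs
import Vale.Agent.P157.Parisi.System

/-!
States on finite sets of unit vectors, and the perturbed system on them.
-/

noncomputable section

open MeasureTheory ProbabilityTheory
open scoped BigOperators NNReal ENNReal

namespace Vale.Agent.P157.Parisi.Sphere

/-- A finite family of unit vectors, with uniform weights. -/
structure Pts (N : ℕ) where
  K : ℕ
  pos : 0 < K
  u : Fin K → Fin N → ℝ
  norm_one : 0 < N → ∀ σ, ∑ i, u σ i ^ 2 = 1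

variable {N L : ℕ}

/-- Configurations. -/
def Conf (P : Pts N) : Type := Fin P.K

instance (P : Pts N) : Fintype (Conf P) := inferInstanceAs (Fintype (Fin P.K))
instance (P : Pts N) : DecidableEq (Conf P) := inferInstanceAs (DecidableEq (Fin P.K))
instance (P : Pts N) : Nonempty (Conf P) := ⟨(⟨0, P.pos⟩ : Fin P.K)⟩
instance (P : Pts N) : Inhabited (Conf P) := ⟨(⟨0, P.pos⟩ : Fin P.K)⟩
instance (P : Pts N) : MeasurableSpace (Conf P) := ⊤
instance (P : Pts N) : DiscreteMeasurableSpace (Conf P) := ⟨fun _ => trivial⟩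

variable {P : Pts N}

/-- The vector of a configuration. -/
def unitVec (σ : Conf P) : Fin N → ℝ := P.u σ

/-- The overlap. -/
def overlap (σ τ : Conf P) : ℝ := dot (unitVec σ) (unitVec τ)

/-- The overlap matrix of replicas. -/
def overlaps {n : ℕ} (σ : Fin n → Conf P) : Fin n → Fin n → ℝ :=
  fun a b => overlap (σ a) (σ b)

/-- Random weights on the configurations. -/
structure State {N : ℕ} (P : Pts N) where
  Ω : Type
  mΩ : MeasurableSpace Ω
  law : @Measure Ω mΩ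
  w : Ω → Conf P → ℝ

attribute [instance] State.mΩ

/-- The requirements on a state. -/
structure State.IsGood (S : State P) : Prop where
  prob : IsProbabilityMeasure S.law
  meas : ∀ σ, Measurable fun ω => S.w ω σ
  nonneg : ∀ ω σ, 0 ≤ S.w ω σ
  sum_one : ∀ ω, ∑ σ, S.w ω σ = 1

/-- The mean of a function of `n` replicas. -/
def State.repMean (S : State P) (n : ℕ) (F : (Fin n → Conf P) → ℝ) : ℝ :=
  ∫ ω, ∑ σ : Fin n → Conf P, (∏ l, S.w ω (σ l)) * F σ ∂S.law

/-- `n` replicas under `k` fresh patterns. -/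
def State.patMean (S : State P) (f : ℝ → ℝ) {k n : ℕ}
    (F : (Fin n → Fin n → ℝ) → ℝ) (o : Fin k → Obs n) : ℝ :=
  ∫ ω, ∫ g : Fin k → Fin N → ℝ,
    (∑ σ : Fin n → Conf P, (∏ l, S.w ω (σ l) * Real.exp (∑ j, f (dot (g j) (unitVec (σ l))))) *
        (F (overlaps σ) * ∏ j, (o j).eval fun l => dot (g j) (unitVec (σ l)))) /
      (∑ σ : Conf P, S.w ω σ * Real.exp (∑ j, f (dot (g j) (unitVec σ)))) ^ n
    ∂(Measure.pi fun _ => gam (Fin N)) ∂S.law

/-- `E log` of the average weight of `k` fresh patterns. -/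
def State.logMean (S : State P) (f : ℝ → ℝ) (k : ℕ) : ℝ :=
  ∫ ω, ∫ g : Fin k → Fin N → ℝ,
    Real.log (∑ σ : Conf P, S.w ω σ * Real.exp (∑ j, f (dot (g j) (unitVec σ))))
    ∂(Measure.pi fun _ => gam (Fin N)) ∂S.law

/-- The states are asymptotically the cascades of the paths. -/
def Approx (N : ℕ → ℕ) (P : ∀ j, Pts (N j)) (S : ∀ j, State (P j)) (ξ : ℕ → Path) : Prop :=
  ∀ (n : ℕ) (F : (Fin n → Fin n → ℝ) → ℝ), Continuous F →
    Filter.Tendsto (fun j => (S j).repMean n (fun σ => F (overlaps σ)) - (ξ j).treeExp n F)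
      Filter.atTop (nhds 0)

/-- The Ghirlanda–Guerra identity for the power `p + 1` of the overlap holds up to `δ`. -/
def GGWithin (S : State P) (p : ℕ) (δ : ℝ) : Prop :=
  ∀ (n : ℕ) (F : (Fin (n + 1) → Conf P) → ℝ), (∀ σ, |F σ| ≤ 1) →
    |((n : ℝ) + 1) * S.repMean (n + 2)
        (fun σ => F (fun l => σ l.castSucc) * overlap (σ 0) (σ (Fin.last (n + 1))) ^ (p + 1)) -
      (S.repMean (n + 1) F * S.repMean 2 (fun σ => overlap (σ 0) (σ 1) ^ (p + 1)) +
        ∑ l : Fin n, S.repMean (n + 1)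
          (fun σ => F σ * overlap (σ 0) (σ l.succ) ^ (p + 1)))| ≤ ((n : ℝ) + 1) * δ

/-! ### The perturbed system -/

/-- The perturbation field. -/
def pertH (s : ℝ) (x : Fin L → ℝ) (J : PertIdx N L → ℝ) (σ : Conf P) : ℝ :=
  ∑ c : PertIdx N L, J c * (s * x c.1 * (1 / 2) ^ (c.1.val + 1) * ∏ i, unitVec σ (c.2 i))

/-- The perturbed Hamiltonian. -/
def totalH (f : ℝ → ℝ) (s : ℝ) (x : Fin L → ℝ) (d : Dis N L) (σ : Conf P) : ℝ :=
  (∑ a ∈ Finset.range d.1, f (dot (d.2.1 a) (unitVec σ))) + pertH s x d.2.2 σ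

/-- The perturbed system as a state. -/
def sysState (P : Pts N) {L : ℕ} (f : ℝ → ℝ) (s : ℝ) (x : Fin L → ℝ) (μ : ℝ) : State P where
  Ω := Dis N L
  mΩ := inferInstance
  law := disLaw N L μ
  w d σ := Real.exp (totalH f s x d σ) / ∑ τ : Conf P, Real.exp (totalH f s x d τ)

/-- `E log` of the partition function, normalised by the uniform law. -/
def logPartS (P : Pts N) {L : ℕ} (f : ℝ → ℝ) (s : ℝ) (x : Fin L → ℝ) (μ : ℝ) : ℝ :=
  ∫ d, Real.log ((∑ σ : Conf P, Real.exp (totalH f s x d σ)) / P.K) ∂disLaw N L μ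

/-! ### The cavity value -/

/-- The cavity exponent. -/
def cavB (f : ℝ → ℝ) (T : ℝ) (d : Dis N L) (σ : Conf P) : ℝ :=
  (∑ a ∈ Finset.range d.1, (deriv (deriv f) (dot (d.2.1 a) (unitVec σ)) -
    clampT T (dot (d.2.1 a) (unitVec σ)) * deriv f (dot (d.2.1 a) (unitVec σ)))) / (2 * N)

/-- The cavity field. -/
def cavY (f : ℝ → ℝ) (z : ℕ → ℝ) (d : Dis N L) (σ : Conf P) : ℝ :=
  (∑ a ∈ Finset.range d.1, z a * deriv f (dot (d.2.1 a) (unitVec σ))) / Real.sqrt N

/-- The Gaussian mass of the cell `[j / m, (j + 1) / m)`. -/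
def cellW (m j : ℕ) : ℝ :=
  (gaussianReal 0 1).real (Set.Ico ((j : ℝ) / m) (((j : ℝ) + 1) / m))

/-- A new spin on the grid of mesh `1 / m` in `[-R, R]`: `∑ w exp (e y + e² b)`. -/
def gridSum (R m : ℕ) (y b : ℝ) : ℝ :=
  ∑ j ∈ Finset.range (R * m),
    cellW m j * (2 * Real.cosh ((j : ℝ) / m * y) * Real.exp (((j : ℝ) / m) ^ 2 * b))

/-- The cavity value of the perturbed system. -/
def cavVal (P : Pts N) {L : ℕ} (f : ℝ → ℝ) (R m : ℕ) (T s : ℝ) (x : Fin L → ℝ) (μ : ℝ) : ℝ :=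
  ∫ d, ∫ z, Real.log (∑ σ : Conf P, (sysState P f s x μ).w d σ *
      gridSum R m (cavY f z d σ) (cavB f T d σ))
    ∂(Measure.infinitePi fun _ : ℕ => gaussianReal 0 1) ∂disLaw N L μ

/-- The tolerance of a discretisation of the sphere. -/
def netTol (N : ℕ) : ℝ := 1 / ((N : ℝ) + 1) ^ 3

/-- The families discretise the sphere: a map moving every point by at most `netTol N` sends
`sphereLaw N` to a law comparable with the uniform weights up to a factor `1 ± netTol N`. -/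
def IsNets (P : ∀ N, Pts N) : Prop :=
  ∀ N, 0 < N → ∃ π : (Fin N → ℝ) → Fin N → ℝ, Measurable π ∧
    (∀ᵐ x ∂sphereLaw N,
      Real.sqrt (∑ i, (π x i - x i / Real.sqrt N) ^ 2) ≤ netTol N ∧ ∃ σ, π x = (P N).u σ) ∧
    ∀ φ : (Fin N → ℝ) → ℝ, Measurable φ → (∀ v, 0 ≤ φ v) →
      (1 - netTol N) * ∫ x, φ (π x) ∂sphereLaw N ≤ (∑ σ, φ ((P N).u σ)) / (P N).K ∧
        (∑ σ, φ ((P N).u σ)) / (P N).K ≤ (1 + netTol N) * ∫ x, φ (π x) ∂sphereLaw N

end Vale.Agent.P157.Parisi.Sphere
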